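import Crest.Agent.X212.Sard93.Smale

/-!
# X212 / Fin93 / Main (helper93): genericity with FINITE sums of perturbations (note 3189 (1))

`Ω` perturbations, exhausted by stages `ι J : P J → Ω` (`J` in a directed order, `P J` Baire, e.g.
`J : Finset W`, `P J = J → ℝ`); finitely many strata `s : S` with `rank` (smaller = deeper);
`Sol s ω x`, `Reg s ω x` (`False` for strata that must be empty), `Onto s ω x J` (the universal
linearisation with the words in `J` is onto), `Near s x₀` (configurations equivalent to one near `x₀`),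
`Adm` an admissible set of perturbations, open in every stage.
`Hyp.exists_good` : there is an admissible `ω` in some stage with `Sol s ω x → Reg s ω x` for all `s, x`.
-/

set_option autoImplicit false
open scoped Topology
open Set Filter

namespace Crest.Agent.X212.Fin93

/-- the data of a stratified perturbation problem -/
structure Dat (Ω 𝒥 S : Type*) (P : 𝒥 → Type*) (X : S → Type*) where
  ι : ∀ J, P J → Ω
  rank : S → ℕ
  Adm : Ω → Prop
  Sol : ∀ s, Ω → X s → Prop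
  Reg : ∀ s, Ω → X s → Prop
  Onto : ∀ s, Ω → X s → 𝒥 → Prop
  Near : ∀ s, X s → Filter (X s)

variable {Ω 𝒥 S : Type*} {P : 𝒥 → Type*} {X : S → Type*}

/-- all solutions in the stratum `s` are regular -/
def Dat.Good (D : Dat Ω 𝒥 S P X) (s : S) (ω : Ω) : Prop := ∀ x, D.Sol s ω x → D.Reg s ω x

variable [Preorder 𝒥] [∀ J, TopologicalSpace (P J)]

/-- the hypotheses -/
structure Dat.Hyp (D : Dat Ω 𝒥 S P X) : Prop where
  /-- the stages increase -/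
  stage : ∀ J J', J ≤ J' → ∀ p, ∃ p', D.ι J' p' = D.ι J p
  /-- admissibility is open in every stage -/
  adm : ∀ J p₀, D.Adm (D.ι J p₀) → ∀ᶠ p in 𝓝 p₀, D.Adm (D.ι J p)
  mono : ∀ s ω x J J', J ≤ J' → D.Onto s ω x J → D.Onto s ω x J'
  /-- density of words -/
  dens : ∀ s J p x, D.Adm (D.ι J p) → D.Sol s (D.ι J p) x →
    D.Reg s (D.ι J p) x ∨ ∃ J', D.Onto s (D.ι J p) x J'
  /-- `Onto` is open at fixed `ω` -/
  onto : ∀ s J p x₀ J', D.Adm (D.ι J p) → D.Sol s (D.ι J p) x₀ → D.Onto s (D.ι J p) x₀ J' →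
    ∀ᶠ x in D.Near s x₀, D.Sol s (D.ι J p) x → D.Onto s (D.ι J p) x J'
  /-- regularity is open -/
  reg : ∀ s J p₀ x₀, D.Adm (D.ι J p₀) → D.Sol s (D.ι J p₀) x₀ → D.Reg s (D.ι J p₀) x₀ →
    ∀ᶠ z in 𝓝 p₀ ×ˢ D.Near s x₀, D.Sol s (D.ι J z.1) z.2 → D.Reg s (D.ι J z.1) z.2
  /-- local Sard (slice + `Sard93.param_loc`) -/
  loc : ∀ s J p₀ x₀, D.Adm (D.ι J p₀) → D.Sol s (D.ι J p₀) x₀ → D.Onto s (D.ι J p₀) x₀ J →
    ∃ A ∈ 𝓝 p₀ ×ˢ D.Near s x₀, ∀ᶠ p in residual (P J), ∀ x, (p, x) ∈ A → D.Sol s (D.ι J p) x →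
      D.Reg s (D.ι J p) x
  /-- compactness: if the deeper strata are good, an ultrafilter of solutions converges in the stratum
  or is eventually regular (empty deeper strata: never happens; glued ends: gluing theorem) -/
  comp : ∀ s J p₀, D.Adm (D.ι J p₀) → (∀ s', D.rank s' < D.rank s → D.Good s' (D.ι J p₀)) →
    ∀ 𝒰 : Ultrafilter (P J × X s), Tendsto Prod.fst (𝒰 : Filter (P J × X s)) (𝓝 p₀) →
      (∀ᶠ z in (𝒰 : Filter (P J × X s)), D.Sol s (D.ι J z.1) z.2) →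
      (∀ᶠ z in (𝒰 : Filter (P J × X s)), D.Reg s (D.ι J z.1) z.2) ∨
        ∃ x₀, D.Sol s (D.ι J p₀) x₀ ∧ Tendsto Prod.snd (𝒰 : Filter (P J × X s)) (D.Near s x₀)

namespace Dat.Hyp
variable {D : Dat Ω 𝒥 S P X} (H : D.Hyp)
include H

/-- finite covers of the non-regular solutions near `p₀` -/
theorem cover {s : S} {J : 𝒥} {p₀ : P J} (ha : D.Adm (D.ι J p₀))
    (hd : ∀ s', D.rank s' < D.rank s → D.Good s' (D.ι J p₀)) (A : X s → Set (P J × X s))
    (hA : ∀ x₀, D.Sol s (D.ι J p₀) x₀ → A x₀ ∈ 𝓝 p₀ ×ˢ D.Near s x₀) :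
    ∃ T : Set (X s), T.Finite ∧ (∀ x₀ ∈ T, D.Sol s (D.ι J p₀) x₀) ∧
      ∀ᶠ p in 𝓝 p₀, ∀ x, D.Sol s (D.ι J p) x → D.Reg s (D.ι J p) x ∨ ∃ x₀ ∈ T, (p, x) ∈ A x₀ := by
  set B : Set (P J × X s) := {z | D.Sol s (D.ι J z.1) z.2 ∧ ¬ D.Reg s (D.ι J z.1) z.2} with hB
  set 𝒞 : Set (Set (P J × X s)) := (fun x₀ => (A x₀)ᶜ) '' {x₀ | D.Sol s (D.ι J p₀) x₀} with h𝒞
  have hbot : (comap Prod.fst (𝓝 p₀) ⊓ 𝓟 B) ⊓ generate 𝒞 = ⊥ := by
    by_contra hne
    have : NeBot ((comap Prod.fst (𝓝 p₀) ⊓ 𝓟 B) ⊓ generate 𝒞) := ⟨hne⟩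
    obtain ⟨𝒰, h𝒰⟩ := Ultrafilter.exists_le ((comap Prod.fst (𝓝 p₀) ⊓ 𝓟 B) ⊓ generate 𝒞)
    have h1 : Tendsto Prod.fst (𝒰 : Filter (P J × X s)) (𝓝 p₀) :=
      tendsto_iff_comap.2 (h𝒰.trans (inf_le_left.trans inf_le_left))
    have h2 : B ∈ (𝒰 : Filter (P J × X s)) :=
      le_principal_iff.1 (h𝒰.trans (inf_le_left.trans inf_le_right))
    rcases H.comp s J p₀ ha hd 𝒰 h1 (mem_of_superset h2 fun z hz => hz.1) with h | ⟨x₀, hx₀, h⟩
    · obtain ⟨z, hz1, hz2⟩ := (h.and h2).exists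
      exact hz2.2 hz1
    · have h3 : A x₀ ∈ (𝒰 : Filter (P J × X s)) := (h1.prodMk h) (hA x₀ hx₀)
      have h4 : (A x₀)ᶜ ∈ (𝒰 : Filter (P J × X s)) :=
        (h𝒰.trans inf_le_right) (mem_generate_of_mem ⟨x₀, hx₀, rfl⟩)
      obtain ⟨z, hz1, hz2⟩ := Filter.nonempty_of_mem (inter_mem h3 h4)
      exact hz2 hz1
  obtain ⟨U, hU, V, hV, hUV⟩ := inf_eq_bot_iff.1 hbot
  obtain ⟨t, ht, htf, htV⟩ := mem_generate_iff.1 hV
  obtain ⟨T, hT, hTf, rfl⟩ := (Finite.exists_subset_finite_image_eq htf ht :)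
  rw [mem_inf_principal, mem_comap] at hU
  obtain ⟨O, hO, hOU⟩ := hU
  refine ⟨T, hTf, fun x hx => hT hx, ?_⟩
  filter_upwards [hO] with p hp x hx
  by_contra hn
  push Not at hn
  have h1 : (p, x) ∈ U := hOU (show (p, x).1 ∈ O from hp) ⟨hx, hn.1⟩
  have h2 : (p, x) ∈ V := htV (by
    rintro _ ⟨x₀, hx₀, rfl⟩
    exact hn.2 x₀ hx₀)
  exact (hUV ▸ (⟨h1, h2⟩ : (p, x) ∈ U ∩ V) : (p, x) ∈ (∅ : Set _))

/-- goodness is open in every stage -/
theorem good_open {s : S} {J : 𝒥} {p₀ : P J} (ha : D.Adm (D.ι J p₀))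
    (hd : ∀ s', D.rank s' < D.rank s → D.Good s' (D.ι J p₀)) (hs : D.Good s (D.ι J p₀)) :
    ∀ᶠ p in 𝓝 p₀, D.Good s (D.ι J p) := by
  obtain ⟨T, -, -, h⟩ := H.cover ha hd
    (fun _ => {z | D.Sol s (D.ι J z.1) z.2 → D.Reg s (D.ι J z.1) z.2})
    fun x₀ hx₀ => H.reg s J p₀ x₀ ha hx₀ (hs x₀ hx₀)
  filter_upwards [h] with p hp x hx
  rcases hp x hx with h1 | ⟨_, -, h1⟩
  · exact h1
  · exact h1 hx

variable [IsDirectedOrder 𝒥]

/-- one finite stage is enough for all solutions of a fixed `ω` -/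
theorem exists_stage {s : S} {J : 𝒥} {p₀ : P J} (ha : D.Adm (D.ι J p₀))
    (hd : ∀ s', D.rank s' < D.rank s → D.Good s' (D.ι J p₀)) :
    ∃ J', J ≤ J' ∧ ∀ x, D.Sol s (D.ι J p₀) x → D.Reg s (D.ι J p₀) x ∨ D.Onto s (D.ι J p₀) x J' := by
  by_contra hn
  push Not at hn
  have : Nonempty 𝒥 := ⟨J⟩
  have hx : ∀ J', ∃ x, J ≤ J' → D.Sol s (D.ι J p₀) x ∧ ¬ D.Reg s (D.ι J p₀) x ∧
      ¬ D.Onto s (D.ι J p₀) x J' := fun J' => by
    by_cases h : J ≤ J'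
    · obtain ⟨x, hx⟩ := hn J' h
      exact ⟨x, fun _ => hx⟩
    · obtain ⟨x, -⟩ := hn J le_rfl
      exact ⟨x, fun h' => absurd h' h⟩
  choose x hx using hx
  obtain ⟨𝒱, h𝒱⟩ := Ultrafilter.exists_le (atTop : Filter 𝒥)
  have hJ : ∀ J', ∀ᶠ j in (𝒱 : Filter 𝒥), J' ≤ j := fun J' => h𝒱 (eventually_ge_atTop J')
  rcases H.comp s J p₀ ha hd (𝒱.map fun j => (p₀, x j)) (tendsto_map'_iff.2 tendsto_const_nhds)
    ((hJ J).mono fun j hj => (hx j hj).1) with h | ⟨x₀, hx₀, h⟩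
  · obtain ⟨j, h1, h2⟩ := ((show ∀ᶠ j in (𝒱 : Filter 𝒥), D.Reg s (D.ι J p₀) (x j) from h).and
      (hJ J)).exists
    exact (hx j h2).2.1 h1
  · have ht : Tendsto x (𝒱 : Filter 𝒥) (D.Near s x₀) := h
    rcases H.dens s J p₀ x₀ ha hx₀ with hr | ⟨J₀, h0⟩
    · have h1 := (tendsto_const_nhds.prodMk ht).eventually (H.reg s J p₀ x₀ ha hx₀ hr)
      obtain ⟨j, h2, h3⟩ := (h1.and (hJ J)).exists
      exact (hx j h3).2.1 (h2 (hx j h3).1)
    · obtain ⟨j, h2, h3, h4⟩ :=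
        ((ht.eventually (H.onto s J p₀ x₀ J₀ ha hx₀ h0)).and ((hJ J).and (hJ J₀))).exists
      exact (hx j h3).2.2 (H.mono _ _ _ _ _ h4 (h2 (hx j h3).1))

variable [∀ J, BaireSpace (P J)]

/-- the inductive step -/
theorem good_dense {s : S} {J : 𝒥} {p₀ : P J} (ha : D.Adm (D.ι J p₀))
    (hd : ∀ s', D.rank s' < D.rank s → D.Good s' (D.ι J p₀)) :
    ∃ J', J ≤ J' ∧ ∃ p₁, D.ι J' p₁ = D.ι J p₀ ∧ ∃ᶠ p in 𝓝 p₁, D.Good s (D.ι J' p) := by
  obtain ⟨J', hJ, h⟩ := H.exists_stage ha hd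
  obtain ⟨p₁, hp₁⟩ := H.stage J J' hJ p₀
  refine ⟨J', hJ, p₁, hp₁, ?_⟩
  rw [← hp₁] at ha hd h
  have hA : ∀ x₀, ∃ A : Set (P J' × X s), D.Sol s (D.ι J' p₁) x₀ → A ∈ 𝓝 p₁ ×ˢ D.Near s x₀ ∧
      ∀ᶠ p in residual (P J'), ∀ x, (p, x) ∈ A → D.Sol s (D.ι J' p) x → D.Reg s (D.ι J' p) x := by
    intro x₀
    by_cases hx₀ : D.Sol s (D.ι J' p₁) x₀
    · rcases h x₀ hx₀ with hr | ho
      · exact ⟨_, fun _ => ⟨H.reg s J' p₁ x₀ ha hx₀ hr, Eventually.of_forall fun _ _ hz => hz⟩⟩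
      · obtain ⟨A, hA⟩ := H.loc s J' p₁ x₀ ha hx₀ ho
        exact ⟨A, fun _ => hA⟩
    · exact ⟨univ, fun h' => absurd h' hx₀⟩
  choose A hA using hA
  obtain ⟨T, hT, hTs, hc⟩ := H.cover ha hd A fun x₀ hx₀ => (hA x₀ hx₀).1
  have hres := (eventually_countable_ball hT.countable).2 fun x₀ hx₀ => (hA x₀ (hTs x₀ hx₀)).2
  have hfr := mem_closure_iff_frequently.1 (dense_of_mem_residual hres p₁)
  refine (hfr.and_eventually hc).mono fun p hp x hx => ?_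
  rcases hp.2 x hx with h1 | ⟨x₀, hx₀, h1⟩
  · exact h1
  · exact hp.1 x₀ hx₀ x h1 hx

/-- **FIN** -/
theorem exists_good [Finite S] {J₀ : 𝒥} {p₀ : P J₀} (ha : D.Adm (D.ι J₀ p₀)) :
    ∃ J, J₀ ≤ J ∧ ∃ p, D.Adm (D.ι J p) ∧ ∀ s, D.Good s (D.ι J p) := by
  classical
  have := Fintype.ofFinite S
  have key : ∀ T : Finset S, (∀ s ∈ T, ∀ s', D.rank s' < D.rank s → s' ∈ T) →
      ∃ J, J₀ ≤ J ∧ ∃ p, D.Adm (D.ι J p) ∧ ∀ s ∈ T, D.Good s (D.ι J p) := by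
    intro T
    induction T using Finset.induction_on_max_value D.rank with
    | empty => exact fun _ => ⟨J₀, le_rfl, p₀, ha, by simp⟩
    | insert a T haT hmax ih =>
      intro hT
      have hT' : ∀ s ∈ insert a T, ∀ s', D.rank s' < D.rank s → s' ∈ T := by
        intro s hs s' hlt
        have hle : D.rank s ≤ D.rank a := by
          rcases Finset.mem_insert.1 hs with rfl | h
          · exact le_rfl
          · exact hmax s h
        rcases Finset.mem_insert.1 (hT s hs s' hlt) with rfl | h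
        · omega
        · exact h
      obtain ⟨J, hJ, p, hp, hg⟩ := ih fun s hs => hT' s (Finset.mem_insert_of_mem hs)
      obtain ⟨J', hJ', p₁, hp₁, hfr⟩ := H.good_dense (s := a) hp
        fun s' h => hg s' (hT' a (Finset.mem_insert_self a T) s' h)
      rw [← hp₁] at hp hg
      have hev : ∀ᶠ q in 𝓝 p₁, ∀ s ∈ T, D.Good s (D.ι J' q) :=
        (eventually_all_finset T).2 fun s hs => H.good_open hp
          (fun s' h => hg s' (hT' s (Finset.mem_insert_of_mem hs) s' h)) (hg s hs)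
      obtain ⟨q, h1, h2, h3⟩ := (hfr.and_eventually (hev.and (H.adm J' p₁ hp))).exists
      refine ⟨J', hJ.trans hJ', q, h3, fun s hs => ?_⟩
      rcases Finset.mem_insert.1 hs with rfl | h
      · exact h1
      · exact h2 s h
  obtain ⟨J, hJ, p, hp, hg⟩ := key Finset.univ fun _ _ _ _ => Finset.mem_univ _
  exact ⟨J, hJ, p, hp, fun s => hg s (Finset.mem_univ s)⟩

omit [IsDirectedOrder 𝒥] [∀ J, BaireSpace (P J)] in
/-- the good set is open in every stage -/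
theorem good_all_open [Finite S] {J : 𝒥} {p₀ : P J} (ha : D.Adm (D.ι J p₀))
    (hg : ∀ s, D.Good s (D.ι J p₀)) : ∀ᶠ p in 𝓝 p₀, ∀ s, D.Good s (D.ι J p) :=
  eventually_all.2 fun s => H.good_open ha (fun s' _ => hg s') (hg s)

end Dat.Hyp

/-! ### the standard stages: finitely supported coefficients -/

section std
variable {W : Type*}

open Classical in
/-- extension by zero -/
noncomputable def ext0 (J : Finset W) (p : J → ℝ) : W →₀ ℝ :=
  Finsupp.onFinset J (fun w => if h : w ∈ J then p ⟨w, h⟩ else 0) fun w hw => by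
    by_contra h
    exact hw (dif_neg h)

theorem ext0_mem {J : Finset W} (p : J → ℝ) (w : J) : ext0 J p w = p w := by
  simp [ext0]

theorem ext0_not_mem {J : Finset W} (p : J → ℝ) {w : W} (h : w ∉ J) : ext0 J p w = 0 := by
  simp [ext0, h]

theorem ext0_support (J : Finset W) (p : J → ℝ) : (ext0 J p).support ⊆ J :=
  Finsupp.support_onFinset_subset

theorem ext0_restrict {J : Finset W} {ω : W →₀ ℝ} (h : ω.support ⊆ J) :
    ext0 J (fun w => ω w) = ω := by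
  ext w
  by_cases hw : w ∈ J
  · exact ext0_mem _ ⟨w, hw⟩
  · rw [ext0_not_mem _ hw]
    exact (Finsupp.notMem_support_iff.1 fun h' => hw (h h')).symm

theorem ext0_stage (J J' : Finset W) (h : J ≤ J') (p : J → ℝ) : ∃ p', ext0 J' p' = ext0 J p :=
  ⟨_, ext0_restrict ((ext0_support J p).trans h)⟩

theorem ext0_sum {N : Type*} [AddCommMonoid N] [Module ℝ N] (J : Finset W) (p : J → ℝ) (τ : W → N) :
    ((ext0 J p).sum fun w c => c • τ w) = ∑ w : J, p w • τ w := by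
  rw [Finsupp.sum_of_support_subset _ (ext0_support J p) (fun w c => c • τ w)
    (fun _ _ => zero_smul ℝ _), ← Finset.sum_coe_sort J]
  exact Finset.sum_congr rfl fun w _ => by rw [ext0_mem]

end std

end Crest.Agent.X212.Fin93
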